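import Vale.Agent.P066.Defs

/-!
# Multicolourings, closed twins, countably many variables
-/

set_option autoImplicit false

open Finset

namespace Vale.Agent.P066.Multi

variable {n : ℕ}

/-- An `m`-fold colouring of the graph `G` with colours in `Fin N`: every vertex `a` receives a set
of `m a` colours, adjacent vertices receive disjoint sets. -/
def IsMulticolouring {N : ℕ} (G : SimpleGraph (Fin n)) (m : Fin n → ℕ)
    (κ : Fin n → Finset (Fin N)) : Prop :=
  (∀ a, (κ a).card = m a) ∧ ∀ a b, G.Adj a b → Disjoint (κ a) (κ b)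

/-- The number of ascents of a multicolouring: the number of `(a, b, i, j)` with `{a, b}` an edge,
`a < b`, `i` a colour of `a`, `j` a colour of `b`, and `i < j`. -/
noncomputable def multiAsc {N : ℕ} (G : SimpleGraph (Fin n)) (κ : Fin n → Finset (Fin N)) : ℕ := by
  classical
  exact #{p : (Fin n × Fin n) × (Fin N × Fin N) | p.1.1 < p.1.2 ∧ G.Adj p.1.1 p.1.2 ∧
    p.2.1 ∈ κ p.1.1 ∧ p.2.2 ∈ κ p.1.2 ∧ p.2.1 < p.2.2}

/-- The chromatic quasisymmetric function of the `m`-fold colourings of `G`, in the `N` variables
`x_0, …, x_{N-1}`: the sum over the `m`-fold colourings `κ` with colours in `Fin N` of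
`q ^ asc κ * ∏_a ∏_{i ∈ κ a} x_i`. -/
noncomputable def multichromaticQSF (G : SimpleGraph (Fin n)) (m : Fin n → ℕ) (N : ℕ) :
    MvPolynomial (Fin N) (Polynomial ℤ) := by
  classical
  exact ∑ κ : Fin n → Finset (Fin N) with IsMulticolouring G m κ,
    MvPolynomial.C (Polynomial.X ^ multiAsc G κ) * ∏ a, ∏ i ∈ κ a, MvPolynomial.X i

/-- `a` and `b` are closed twins of `G`: they have the same closed neighbourhood. -/
def Twins (G : SimpleGraph (Fin n)) (a b : Fin n) : Prop :=
  ∀ x, (x = a ∨ G.Adj a x) ↔ (x = b ∨ G.Adj b x)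

/-- `[k]_q = 1 + q + ⋯ + q^(k-1)`. -/
noncomputable def qInt (k : ℕ) : Polynomial ℤ := ∑ i ∈ range k, Polynomial.X ^ i

/-- The product over the vertices `a` of `[t_a]_q`, where `t_a` is the number of closed twins
`b ≤ a` of `a` (with `a` itself). It is the product of the `q`-factorials of the sizes of
the classes of closed twins. -/
noncomputable def twinFactor (G : SimpleGraph (Fin n)) : Polynomial ℤ := by
  classical
  exact ∏ a, qInt #{b : Fin n | b ≤ a ∧ Twins G a b}

/-- The elementary symmetric function `e_k` in the countably many variables `x_0, x_1, …`. -/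
noncomputable def eSeries (k : ℕ) : MvPowerSeries ℕ (Polynomial ℤ) := by
  classical
  exact fun μ => if (∀ i, μ i ≤ 1) ∧ (μ.sum fun _ c => c) = k then 1 else 0

/-- `e_λ = ∏_i e_{λ_i}` in countably many variables. -/
noncomputable def eSeriesPart {k : ℕ} (p : k.Partition) : MvPowerSeries ℕ (Polynomial ℤ) :=
  (p.parts.map eSeries).prod

/-- The chromatic quasisymmetric function of `G` in the countably many variables `x_0, x_1, …`:
the coefficient of `x^μ` is the sum of `q ^ asc f` over the proper colourings `f` in which every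
colour `i` is used `μ i` times. -/
noncomputable def chromaticSeries (G : SimpleGraph (Fin n)) : MvPowerSeries ℕ (Polynomial ℤ) := by
  classical
  exact fun μ => ∑ f ∈ Fintype.piFinset (fun _ : Fin n => μ.support) with
    (∀ a b, G.Adj a b → f a ≠ f b) ∧ ∀ i, #{a : Fin n | f a = i} = μ i,
      Polynomial.X ^ #{p : Fin n × Fin n | p.1 < p.2 ∧ G.Adj p.1 p.2 ∧ f p.1 < f p.2}

end Vale.Agent.P066.Multi
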