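import Vale.Agent.P066.Multi.GMulti

/-!
# Positive expansion of the multicolouring functions
-/

set_option autoImplicit false

open Finset

namespace Vale.Agent.P066.Multi

open Vale.Agent.P066 Vale.Agent.P066.Theta

variable {n : ℕ}

theorem multiK_isHomogeneous (h : Fin n → Fin n) (m : Fin n → ℕ) (M : ℕ) :
    (multiK h m M).IsHomogeneous (∑ a, m a) := by
  classical
  unfold multiK
  refine MvPolynomial.IsHomogeneous.sum _ _ _ fun κ hκ => ?_
  have hκ' := (Finset.mem_filter.1 hκ).2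
  have h0 : ∀ a : Fin n, (∏ i ∈ κ a, (MvPolynomial.X i : MvPolynomial (Fin M) K)).IsHomogeneous
      (m a) := by
    intro a
    have h1 := MvPolynomial.IsHomogeneous.prod (κ a)
      (fun i => (MvPolynomial.X i : MvPolynomial (Fin M) K)) (fun _ => 1)
      (fun i _ => MvPolynomial.isHomogeneous_X _ _)
    rw [Finset.sum_const, smul_eq_mul, mul_one, hκ'.1 a] at h1
    exact h1
  have h1 := MvPolynomial.IsHomogeneous.prod (univ : Finset (Fin n))
    (fun a => ∏ i ∈ κ a, (MvPolynomial.X i : MvPolynomial (Fin M) K)) m (fun a _ => h0 a)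
  have h3 := (MvPolynomial.isHomogeneous_C (Fin M)
    (v ^ ((multiEdges h m : ℤ) - 2 * (multiAsc (unitIntervalGraph h) κ : ℤ)) : K)).mul h1
  rw [zero_add] at h3
  exact h3

/-- The expansion of a homogeneous `G` in the elementary basis. -/
theorem exists_expansion_multi {N k : ℕ} (φ : Fin n → Fin N) (hφ : StrictMono φ)
    (h : Fin n → Fin n) (hh : ∀ i j, i < j → (j ≤ h i ↔ (φ j : ℕ) ≤ (φ i : ℕ) + k))
    (m : Fin n → ℕ) (H : MainId N k) :
    ∃ D : (∑ a, m a).Partition → K, (∀ p, PosL (D p)) ∧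
      ∀ M, multiK h m M = ∑ p : (∑ a, m a).Partition,
        MvPolynomial.C (D p) * MvPolynomial.esymmPart (Fin M) K p := by
  classical
  obtain ⟨th, hth, hmain⟩ := H
  set η : Fin N →₀ ℕ := epsExp (extMult φ m) with hη
  set d : ℕ := ∑ a, m a with hd
  let S : Finset ℕ := (range N).filter (fun l => l * (k + 1) < N)
  let lamOf : (Fin N →₀ ℕ) → ℕ → ℕ := fun γ =>
    if hγ : IsC0 N k γ then hγ.choose else fun _ => 0
  have hlam : ∀ γ, IsC0 N k γ → γ = epsExp (pExp k (lamOf γ)) := by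
    intro γ hγ
    simp only [lamOf, dif_pos hγ]
    exact hγ.choose_spec.2
  have hG : ∀ (M : ℕ) (γ : Fin N →₀ ℕ), IsC0 N k γ →
      G N k M γ = ∏ l ∈ S, MvPolynomial.esymm (Fin M) K (lamOf γ l) := by
    intro M γ hγ
    conv_lhs => rw [hlam γ hγ]
    rw [G_pExp]
  let sz : (Fin N →₀ ℕ) → ℕ := fun γ => (S.val.map (lamOf γ)).sum
  let P : (Fin N →₀ ℕ) → d.Partition := fun γ =>
    if hs : sz γ = d then Nat.Partition.ofSums d (S.val.map (lamOf γ)) hs
    else Nat.Partition.indiscrete d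
  let F : Finset (Fin N →₀ ℕ) := ((Finset.Iic η).filter (IsC0 N k)).filter (fun γ => sz γ = d)
  refine ⟨fun p => ∑ γ ∈ F.filter (fun γ => P γ = p), th γ η,
    fun p => PosL.sum _ fun γ _ => hth γ η, fun M => ?_⟩
  have h1 : multiK h m M = MvPolynomial.homogeneousComponent d (multiK h m M) := by
    rw [MvPolynomial.homogeneousComponent_of_mem (multiK_isHomogeneous h m M), if_pos rfl]
  have h2 : multiK h m M = ∑ γ ∈ (Finset.Iic η).filter (IsC0 N k),
      MvPolynomial.C (th γ η) * G N k M γ := by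
    rw [← G_epsExp (M := M) φ hφ h hh m]
    refine (hmain M η).trans ?_
    exact Finset.sum_congr (by ext γ; simp) fun _ _ => rfl
  rw [h1, h2, map_sum]
  have h3 : ∀ γ ∈ (Finset.Iic η).filter (IsC0 N k),
      MvPolynomial.homogeneousComponent d (MvPolynomial.C (th γ η) * G N k M γ) =
      if sz γ = d then MvPolynomial.C (th γ η) * MvPolynomial.esymmPart (Fin M) K (P γ)
      else 0 := by
    intro γ hγ
    have hC := (Finset.mem_filter.1 hγ).2
    rw [MvPolynomial.homogeneousComponent_C_mul, hG M γ hC,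
      MvPolynomial.homogeneousComponent_of_mem (prod_esymm_isHomogeneous M S (lamOf γ))]
    have h4 : ∑ l ∈ S, lamOf γ l = sz γ := rfl
    rw [h4]
    by_cases hs : sz γ = d
    · rw [if_pos hs, if_pos hs.symm]
      have h5 : P γ = Nat.Partition.ofSums d (S.val.map (lamOf γ)) hs := dif_pos hs
      rw [h5, prod_esymm_eq_esymmPart M S (lamOf γ) hs]
    · rw [if_neg hs, if_neg (fun h => hs h.symm), mul_zero]
  rw [Finset.sum_congr rfl h3, ← Finset.sum_filter]
  rw [← Finset.sum_fiberwise F P]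
  refine Finset.sum_congr rfl fun p _ => ?_
  rw [map_sum, Finset.sum_mul]
  refine Finset.sum_congr rfl fun γ hγ => ?_
  rw [(Finset.mem_filter.1 hγ).2]

theorem map_rho_multi (h : Fin n → Fin n) (m : Fin n → ℕ) (M : ℕ) :
    multiK h m M = MvPolynomial.C (v ^ (multiEdges h m : ℤ)) *
      MvPolynomial.map rho (multichromaticQSF (unitIntervalGraph h) m M) := by
  classical
  unfold multiK multichromaticQSF
  rw [map_sum, Finset.mul_sum]
  refine Finset.sum_congr (by ext κ; simp) fun κ _ => ?_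
  rw [map_mul, MvPolynomial.map_C, map_prod, map_pow, rho_X, ← mul_assoc, ← MvPolynomial.C_mul]
  congr 1
  · congr 1
    rw [sub_eq_add_neg, zpow_add₀ v_ne_zero, ← zpow_natCast, ← zpow_mul]
    congr 2
  · refine Finset.prod_congr rfl fun a _ => ?_
    rw [map_prod]
    exact Finset.prod_congr rfl fun i _ => by rw [MvPolynomial.map_X]

/-- The evaluation of `multiK` at `1` is `∑ v^{E - 2 asc κ}`. -/
theorem eval_multiK (h : Fin n → Fin n) (m : Fin n → ℕ) (M : ℕ) :
    ∃ c : ℤ →₀ ℕ, (∀ i ∈ c.support, ∃ a : ℕ, i = (multiEdges h m : ℤ) - 2 * (a : ℤ)) ∧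
      MvPolynomial.eval (fun _ => (1 : K)) (multiK h m M) = lval c := by
  classical
  let S : Finset (Fin n → Finset (Fin M)) :=
    univ.filter (fun κ => IsMulticolouring (unitIntervalGraph h) m κ)
  refine ⟨∑ κ ∈ S,
    Finsupp.single ((multiEdges h m : ℤ) - 2 * (multiAsc (unitIntervalGraph h) κ : ℤ)) 1, ?_, ?_⟩
  · intro i hi
    obtain ⟨κ, _, hκ⟩ : ∃ κ ∈ S,
        i ∈ (Finsupp.single ((multiEdges h m : ℤ) - 2 * (multiAsc (unitIntervalGraph h) κ : ℤ)) 1 :
          ℤ →₀ ℕ).support := by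
      have := Finsupp.support_finsetSum hi
      simpa using this
    refine ⟨multiAsc (unitIntervalGraph h) κ, ?_⟩
    have h1 := Finsupp.support_single_subset hκ
    simpa using h1
  · have h1 : ∀ T : Finset (Fin n → Finset (Fin M)), lval (∑ κ ∈ T,
        Finsupp.single ((multiEdges h m : ℤ) - 2 * (multiAsc (unitIntervalGraph h) κ : ℤ)) 1) =
        ∑ κ ∈ T, v ^ ((multiEdges h m : ℤ) - 2 * (multiAsc (unitIntervalGraph h) κ : ℤ)) := by
      intro T
      induction T using Finset.induction_on with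
      | empty => simp [lval_zero]
      | insert a T ha ih =>
        rw [Finset.sum_insert ha, Finset.sum_insert ha, lval_add, ih, lval_single]
        simp
    rw [h1]
    unfold multiK
    rw [map_sum]
    refine Finset.sum_congr (by ext κ; simp [S]) fun κ _ => ?_
    simp [map_mul, map_prod]

/-- The theorem for multicolourings, from the main identities of the graphs `P_{N,k}`. -/
theorem multi_of_mainId (H : ∀ N k, 1 ≤ N → 1 ≤ k → MainId N k) (h : Fin n → Fin n)
    (hmono : Monotone h) (m : Fin n → ℕ) :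
    ∃ c : (∑ a, m a).Partition → Polynomial ℤ, (∀ p k, 0 ≤ (c p).coeff k) ∧
      ∀ c' : (∑ a, m a).Partition → Polynomial ℤ,
        (∀ N, multichromaticQSF (unitIntervalGraph h) m N =
          ∑ p : (∑ a, m a).Partition,
            MvPolynomial.C (c' p) * MvPolynomial.esymmPart (Fin N) (Polynomial ℤ) p) ↔
          c' = c := by
  classical
  obtain ⟨N, k, φ, hN, hk, hφ, hh⟩ : ∃ (N k : ℕ) (φ : Fin n → Fin N), 1 ≤ N ∧ 1 ≤ k ∧
      StrictMono φ ∧ ∀ i j, i < j → (j ≤ h i ↔ (φ j : ℕ) ≤ (φ i : ℕ) + k) := by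
    rcases Nat.eq_zero_or_pos n with h0 | h0
    · subst h0
      exact ⟨1, 1, fun a => a.elim0, le_rfl, le_rfl, fun a => a.elim0, fun a => a.elim0⟩
    · obtain ⟨N, k, φ, hk, hφ, hh⟩ := exists_embed h hmono
      exact ⟨N, k, φ, by have := (φ ⟨0, h0⟩).2; omega, hk, hφ, hh⟩
  obtain ⟨D, hD, hE⟩ := exists_expansion_multi φ hφ h hh m (H N k hN hk)
  obtain ⟨c0, hc0, hev⟩ := eval_multiK h m (∑ a, m a)
  have h1 : ∑ p : (∑ a, m a).Partition,
      (((p.parts.map fun k => (∑ a, m a).choose k).prod : ℕ) : K) * D p = lval c0 := by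
    rw [← hev, hE (∑ a, m a), map_sum]
    refine Finset.sum_congr rfl fun p _ => ?_
    rw [map_mul, MvPolynomial.eval_C, eval_esymmPart_one, mul_comm]
  have h2 := laurent_of_sum univ D (fun p => (p.parts.map fun k => (∑ a, m a).choose k).prod)
    (fun p _ => hD p) (fun p _ => prod_choose_pos p) c0 h1
  have h3 : ∀ p : (∑ a, m a).Partition, ∃ c : Polynomial ℤ, (∀ k, 0 ≤ c.coeff k) ∧
      D p = v ^ (multiEdges h m : ℤ) * rho c := by
    intro p
    obtain ⟨e, he, hDe⟩ := h2 p (mem_univ p)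
    obtain ⟨c, hc, hce⟩ := exists_rho (multiEdges h m : ℤ) e fun i hi => hc0 i (he hi)
    exact ⟨c, hc, hDe.trans hce⟩
  choose c hc hDc using h3
  have hexp : ∀ N, multichromaticQSF (unitIntervalGraph h) m N = ∑ p : (∑ a, m a).Partition,
      MvPolynomial.C (c p) * MvPolynomial.esymmPart (Fin N) (Polynomial ℤ) p := by
    intro N
    apply MvPolynomial.map_injective rho rho_injective
    have h4 : (MvPolynomial.C (v ^ (multiEdges h m : ℤ)) : MvPolynomial (Fin N) K) ≠ 0 := by
      rw [Ne, MvPolynomial.C_eq_zero]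
      exact zpow_ne_zero _ v_ne_zero
    apply mul_left_cancel₀ h4
    rw [← map_rho_multi, hE N, map_sum, Finset.mul_sum]
    refine Finset.sum_congr rfl fun p _ => ?_
    rw [map_mul, MvPolynomial.map_C, map_esymmPart, hDc p, MvPolynomial.C_mul, mul_assoc]
  refine ⟨c, hc, fun c' => ⟨fun h' => ?_, fun h' => ?_⟩⟩
  · exact expansion_unique le_rfl c' c ((h' (∑ a, m a)).symm.trans (hexp (∑ a, m a)))
  · rw [h']; exact hexp

end Vale.Agent.P066.Multi
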