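import Vale.Agent.P066.Theta.Final
import Vale.Agent.P066.Multi.Defs

/-!
# The polynomials `G N k M η` at arbitrary exponents: multicolourings
-/

set_option autoImplicit false

open Finset

namespace Vale.Agent.P066.Multi

open Vale.Agent.P066 Vale.Agent.P066.Theta

variable {n N k M : ℕ}

/-- `∑ m a * m b` over the edges `{a, b}`. -/
noncomputable def multiEdges (h : Fin n → Fin n) (m : Fin n → ℕ) : ℕ := by
  classical
  exact ∑ a, ∑ b, if a < b ∧ (unitIntervalGraph h).Adj a b then m a * m b else 0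

/-- The normalized function of the multicolourings. -/
noncomputable def multiK (h : Fin n → Fin n) (m : Fin n → ℕ) (M : ℕ) :
    MvPolynomial (Fin M) K := by
  classical
  exact ∑ κ : Fin n → Finset (Fin M) with IsMulticolouring (unitIntervalGraph h) m κ,
    MvPolynomial.C (v ^ ((multiEdges h m : ℤ) - 2 * (multiAsc (unitIntervalGraph h) κ : ℤ))) *
      ∏ a, ∏ i ∈ κ a, MvPolynomial.X i

/-- The extension by zero of the multiplicities along `φ`. -/
def extMult (φ : Fin n → Fin N) (m : Fin n → ℕ) : Fin N → ℕ :=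
  fun b => ∑ a ∈ univ.filter (fun a => φ a = b), m a

theorem extMult_apply {φ : Fin n → Fin N} (hφ : StrictMono φ) (m : Fin n → ℕ) (a : Fin n) :
    extMult φ m (φ a) = m a := by
  unfold extMult
  have : univ.filter (fun a' => φ a' = φ a) = {a} := by
    ext a'
    simp [hφ.injective.eq_iff]
  rw [this, Finset.sum_singleton]

theorem extMult_of_notMem {φ : Fin n → Fin N} (m : Fin n → ℕ) {b : Fin N}
    (hb : ∀ a, φ a ≠ b) : extMult φ m b = 0 := by
  unfold extMult
  have : univ.filter (fun a' => φ a' = b) = ∅ := by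
    ext a'
    simp [hb]
  rw [this, Finset.sum_empty]

/-- The family of colour classes of a multicolouring, transported to `Fin N` by `φ`. -/
def famOf (φ : Fin n → Fin N) (κ : Fin n → Finset (Fin M)) : Fin M → Finset (Fin N) :=
  fun i => (univ.filter (fun a => i ∈ κ a)).image φ

theorem mem_famOf {φ : Fin n → Fin N} (hφ : StrictMono φ) (κ : Fin n → Finset (Fin M))
    (i : Fin M) (a : Fin n) : φ a ∈ famOf φ κ i ↔ i ∈ κ a := by
  unfold famOf
  simp only [mem_image, mem_filter, mem_univ, true_and]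
  constructor
  · rintro ⟨b, hb, hba⟩
    rwa [← hφ.injective hba]
  · intro h
    exact ⟨a, h, rfl⟩

theorem stable_famOf {φ : Fin n → Fin N} (hφ : StrictMono φ)
    {h : Fin n → Fin n} (hh : ∀ i j, i < j → (j ≤ h i ↔ (φ j : ℕ) ≤ (φ i : ℕ) + k))
    (κ : Fin n → Finset (Fin M)) (hκ : ∀ a b, (unitIntervalGraph h).Adj a b → Disjoint (κ a) (κ b))
    (i : Fin M) : Stable k (famOf φ κ i) := by
  intro a' ha' b' hb' hab
  unfold famOf at ha' hb'
  obtain ⟨a, ha, rfl⟩ := Finset.mem_image.1 ha'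
  obtain ⟨b, hb, rfl⟩ := Finset.mem_image.1 hb'
  have ha2 := (Finset.mem_filter.1 ha).2
  have hb2 := (Finset.mem_filter.1 hb).2
  have hlt : a < b := hφ.lt_iff_lt.1 hab
  by_contra hcon
  have h1 := (adj_iff_of_lt hh hlt).2 (by omega)
  exact Finset.disjoint_left.1 (hκ a b h1) ha2 hb2

theorem famWeight_famOf {φ : Fin n → Fin N} (hφ : StrictMono φ)
    {h : Fin n → Fin n} (hh : ∀ i j, i < j → (j ≤ h i ↔ (φ j : ℕ) ≤ (φ i : ℕ) + k))
    (m : Fin n → ℕ) (κ : Fin n → Finset (Fin M))
    (hκ : IsMulticolouring (unitIntervalGraph h) m κ) :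
    famWeight k (famOf φ κ) =
      (multiEdges h m : ℤ) - 2 * (multiAsc (unitIntervalGraph h) κ : ℤ) := by
  classical
  rw [famWeight_eq]
  have h1 : ∀ i j : Fin M, ∑ a ∈ famOf φ κ i, ∑ b ∈ famOf φ κ j,
      wE k ((a : ℕ) + 1) ((b : ℕ) + 1) =
      ∑ a, ∑ b, if i ∈ κ a ∧ j ∈ κ b then wE k ((φ a : ℕ) + 1) ((φ b : ℕ) + 1) else 0 := by
    intro i j
    unfold famOf
    rw [Finset.sum_image (fun x _ y _ hxy => hφ.injective hxy), Finset.sum_filter]
    refine Finset.sum_congr rfl fun a _ => ?_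
    split_ifs with hi
    · rw [Finset.sum_image (fun x _ y _ hxy => hφ.injective hxy), Finset.sum_filter]
      exact Finset.sum_congr rfl fun b _ => by simp [hi]
    · simp [hi]
  simp only [h1]
  -- the four sums
  have h2 : ∀ (i j : Fin M) (a b : Fin n),
      (if i ∈ κ a ∧ j ∈ κ b then wE k ((φ a : ℕ) + 1) ((φ b : ℕ) + 1) else 0) =
      (if b < a ∧ (unitIntervalGraph h).Adj b a ∧ i ∈ κ a ∧ j ∈ κ b then (1 : ℤ) else 0) -
        (if a < b ∧ (unitIntervalGraph h).Adj a b ∧ i ∈ κ a ∧ j ∈ κ b then (1 : ℤ) else 0) := by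
    intro i j a b
    rw [wE_phi hφ hh a b]
    by_cases hi : i ∈ κ a
    · by_cases hj : j ∈ κ b
      · simp [hi, hj]
      · simp [hj]
    · simp [hi]
  have hIoi : ∀ (t : Fin M → Fin M → ℤ),
      ∑ i, ∑ j ∈ Finset.Ioi i, t i j = ∑ i, ∑ j, if i < j then t i j else 0 := by
    intro t
    refine Finset.sum_congr rfl fun i _ => ?_
    rw [← Finset.sum_filter]
    exact Finset.sum_congr (by ext j; simp) fun _ _ => rfl
  rw [hIoi]
  have h3 : ∑ i, ∑ j, (if i < j then ∑ a, ∑ b,
      (if i ∈ κ a ∧ j ∈ κ b then wE k ((φ a : ℕ) + 1) ((φ b : ℕ) + 1) else 0) else 0) =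
      (∑ i : Fin M, ∑ j : Fin M, ∑ a : Fin n, ∑ b : Fin n,
        (if i < j ∧ b < a ∧ (unitIntervalGraph h).Adj b a ∧ i ∈ κ a ∧ j ∈ κ b
          then (1 : ℤ) else 0)) -
      ∑ i : Fin M, ∑ j : Fin M, ∑ a : Fin n, ∑ b : Fin n,
        (if i < j ∧ a < b ∧ (unitIntervalGraph h).Adj a b ∧ i ∈ κ a ∧ j ∈ κ b
          then (1 : ℤ) else 0) := by
    rw [← Finset.sum_sub_distrib]
    refine Finset.sum_congr rfl fun i _ => ?_
    rw [← Finset.sum_sub_distrib]
    refine Finset.sum_congr rfl fun j _ => ?_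
    by_cases hij : i < j
    · simp only [hij, if_true, true_and]
      rw [← Finset.sum_sub_distrib]
      refine Finset.sum_congr rfl fun a _ => ?_
      rw [← Finset.sum_sub_distrib]
      refine Finset.sum_congr rfl fun b _ => ?_
      exact h2 i j a b
    · simp [hij]
  rw [h3]
  -- ascents and descents as sums over edges
  have hA : (multiAsc (unitIntervalGraph h) κ : ℤ) = ∑ a : Fin n, ∑ b : Fin n,
      ∑ i : Fin M, ∑ j : Fin M,
        (if i < j ∧ a < b ∧ (unitIntervalGraph h).Adj a b ∧ i ∈ κ a ∧ j ∈ κ b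
          then (1 : ℤ) else 0) := by
    unfold multiAsc
    rw [Finset.card_filter, Nat.cast_sum, Fintype.sum_prod_type, Fintype.sum_prod_type]
    refine Finset.sum_congr rfl fun a _ => Finset.sum_congr rfl fun b _ => ?_
    rw [Fintype.sum_prod_type]
    refine Finset.sum_congr rfl fun i _ => Finset.sum_congr rfl fun j _ => ?_
    by_cases h1 : a < b <;> by_cases h2 : (unitIntervalGraph h).Adj a b <;>
      by_cases h3 : i ∈ κ a <;> by_cases h4 : j ∈ κ b <;> by_cases h5 : i < j <;>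
      simp [h1, h2, h3, h4, h5]
  have hB : ∑ i : Fin M, ∑ j : Fin M, ∑ a : Fin n, ∑ b : Fin n,
        (if i < j ∧ a < b ∧ (unitIntervalGraph h).Adj a b ∧ i ∈ κ a ∧ j ∈ κ b
          then (1 : ℤ) else 0) = (multiAsc (unitIntervalGraph h) κ : ℤ) := by
    rw [hA]
    calc _ = ∑ i : Fin M, ∑ a : Fin n, ∑ j : Fin M, ∑ b : Fin n,
        (if i < j ∧ a < b ∧ (unitIntervalGraph h).Adj a b ∧ i ∈ κ a ∧ j ∈ κ b
          then (1 : ℤ) else 0) := Finset.sum_congr rfl fun i _ => Finset.sum_comm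
      _ = ∑ a : Fin n, ∑ i : Fin M, ∑ j : Fin M, ∑ b : Fin n,
        (if i < j ∧ a < b ∧ (unitIntervalGraph h).Adj a b ∧ i ∈ κ a ∧ j ∈ κ b
          then (1 : ℤ) else 0) := Finset.sum_comm
      _ = ∑ a : Fin n, ∑ i : Fin M, ∑ b : Fin n, ∑ j : Fin M,
        (if i < j ∧ a < b ∧ (unitIntervalGraph h).Adj a b ∧ i ∈ κ a ∧ j ∈ κ b
          then (1 : ℤ) else 0) :=
          Finset.sum_congr rfl fun a _ => Finset.sum_congr rfl fun i _ => Finset.sum_comm
      _ = ∑ a : Fin n, ∑ b : Fin n, ∑ i : Fin M, ∑ j : Fin M,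
        (if i < j ∧ a < b ∧ (unitIntervalGraph h).Adj a b ∧ i ∈ κ a ∧ j ∈ κ b
          then (1 : ℤ) else 0) := Finset.sum_congr rfl fun a _ => Finset.sum_comm
  have hC : ∑ i : Fin M, ∑ j : Fin M, ∑ a : Fin n, ∑ b : Fin n,
        (if i < j ∧ b < a ∧ (unitIntervalGraph h).Adj b a ∧ i ∈ κ a ∧ j ∈ κ b
          then (1 : ℤ) else 0) =
      ∑ a : Fin n, ∑ b : Fin n, ∑ i : Fin M, ∑ j : Fin M,
        (if j < i ∧ a < b ∧ (unitIntervalGraph h).Adj a b ∧ i ∈ κ a ∧ j ∈ κ b
          then (1 : ℤ) else 0) := by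
    calc _ = ∑ j : Fin M, ∑ i : Fin M, ∑ a : Fin n, ∑ b : Fin n,
        (if i < j ∧ b < a ∧ (unitIntervalGraph h).Adj b a ∧ i ∈ κ a ∧ j ∈ κ b
          then (1 : ℤ) else 0) := Finset.sum_comm
      _ = ∑ j : Fin M, ∑ i : Fin M, ∑ b : Fin n, ∑ a : Fin n,
        (if i < j ∧ b < a ∧ (unitIntervalGraph h).Adj b a ∧ i ∈ κ a ∧ j ∈ κ b
          then (1 : ℤ) else 0) :=
          Finset.sum_congr rfl fun j _ => Finset.sum_congr rfl fun i _ => Finset.sum_comm
      _ = ∑ j : Fin M, ∑ b : Fin n, ∑ i : Fin M, ∑ a : Fin n,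
        (if i < j ∧ b < a ∧ (unitIntervalGraph h).Adj b a ∧ i ∈ κ a ∧ j ∈ κ b
          then (1 : ℤ) else 0) := Finset.sum_congr rfl fun j _ => Finset.sum_comm
      _ = ∑ b : Fin n, ∑ j : Fin M, ∑ i : Fin M, ∑ a : Fin n,
        (if i < j ∧ b < a ∧ (unitIntervalGraph h).Adj b a ∧ i ∈ κ a ∧ j ∈ κ b
          then (1 : ℤ) else 0) := Finset.sum_comm
      _ = ∑ b : Fin n, ∑ j : Fin M, ∑ a : Fin n, ∑ i : Fin M,
        (if i < j ∧ b < a ∧ (unitIntervalGraph h).Adj b a ∧ i ∈ κ a ∧ j ∈ κ b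
          then (1 : ℤ) else 0) :=
          Finset.sum_congr rfl fun b _ => Finset.sum_congr rfl fun j _ => Finset.sum_comm
      _ = ∑ b : Fin n, ∑ a : Fin n, ∑ j : Fin M, ∑ i : Fin M,
        (if i < j ∧ b < a ∧ (unitIntervalGraph h).Adj b a ∧ i ∈ κ a ∧ j ∈ κ b
          then (1 : ℤ) else 0) := Finset.sum_congr rfl fun b _ => Finset.sum_comm
      _ = _ := by
          refine Finset.sum_congr rfl fun a _ => Finset.sum_congr rfl fun b _ =>
            Finset.sum_congr rfl fun i _ => Finset.sum_congr rfl fun j _ => ?_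
          by_cases h3 : i ∈ κ a <;> by_cases h4 : j ∈ κ b <;> simp [h3, h4]
  have hE : (multiEdges h m : ℤ) =
      (∑ a : Fin n, ∑ b : Fin n, ∑ i : Fin M, ∑ j : Fin M,
        (if j < i ∧ a < b ∧ (unitIntervalGraph h).Adj a b ∧ i ∈ κ a ∧ j ∈ κ b
          then (1 : ℤ) else 0)) +
      ∑ a : Fin n, ∑ b : Fin n, ∑ i : Fin M, ∑ j : Fin M,
        (if i < j ∧ a < b ∧ (unitIntervalGraph h).Adj a b ∧ i ∈ κ a ∧ j ∈ κ b
          then (1 : ℤ) else 0) := by
    unfold multiEdges
    push_cast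
    rw [← Finset.sum_add_distrib]
    refine Finset.sum_congr rfl fun a _ => ?_
    rw [← Finset.sum_add_distrib]
    refine Finset.sum_congr rfl fun b _ => ?_
    by_cases hab : a < b ∧ (unitIntervalGraph h).Adj a b
    · rw [if_pos hab, ← hκ.1 a, ← hκ.1 b, ← Finset.sum_add_distrib]
      have h5 : ((κ a).card : ℤ) * ((κ b).card : ℤ) =
          ∑ i : Fin M, ∑ j : Fin M, if i ∈ κ a ∧ j ∈ κ b then (1 : ℤ) else 0 := by
        have h6 : ∀ i : Fin M, ∑ j : Fin M, (if i ∈ κ a ∧ j ∈ κ b then (1 : ℤ) else 0) =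
            if i ∈ κ a then ((κ b).card : ℤ) else 0 := by
          intro i
          by_cases hi : i ∈ κ a
          · simp [hi]
          · simp [hi]
        rw [Finset.sum_congr rfl fun i _ => h6 i]
        simp
      rw [h5]
      refine Finset.sum_congr rfl fun i _ => ?_
      rw [← Finset.sum_add_distrib]
      refine Finset.sum_congr rfl fun j _ => ?_
      by_cases h3 : i ∈ κ a
      · by_cases h4 : j ∈ κ b
        · have hne : i ≠ j := by
            rintro rfl
            exact Finset.disjoint_left.1 (hκ.2 a b hab.2) h3 h4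
          rcases lt_or_gt_of_ne hne with h7 | h7
          · simp [h3, h4, hab.1, hab.2, h7, lt_asymm h7]
          · simp [h3, h4, hab.1, hab.2, h7, lt_asymm h7]
        · simp [h4]
      · simp [h3]
    · rw [if_neg hab]
      have h5 : ∀ (i j : Fin M), ¬ (j < i ∧ a < b ∧ (unitIntervalGraph h).Adj a b ∧ i ∈ κ a ∧
          j ∈ κ b) := fun i j h => hab ⟨h.2.1, h.2.2.1⟩
      have h6 : ∀ (i j : Fin M), ¬ (i < j ∧ a < b ∧ (unitIntervalGraph h).Adj a b ∧ i ∈ κ a ∧
          j ∈ κ b) := fun i j h => hab ⟨h.2.1, h.2.2.1⟩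
      simp [h5, h6]
  rw [hB, hC]
  rw [← hA] at hE
  linarith

/-- `G` at an arbitrary exponent is (up to a power of `v`) the chromatic quasisymmetric function of
the multicolourings. -/
theorem G_epsExp (φ : Fin n → Fin N) (hφ : StrictMono φ)
    (h : Fin n → Fin n) (hh : ∀ i j, i < j → (j ≤ h i ↔ (φ j : ℕ) ≤ (φ i : ℕ) + k))
    (m : Fin n → ℕ) :
    G N k M (epsExp (extMult φ m)) = multiK h m M := by
  classical
  symm
  unfold G multiK
  refine Finset.sum_bij (fun κ _ => famOf φ κ) ?_ ?_ ?_ ?_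
  · intro κ hκ
    have hκ' := (Finset.mem_filter.1 hκ).2
    simp only [mem_filter, mem_univ, true_and]
    refine ⟨fun i => stable_famOf hφ hh κ hκ'.2 i, ?_⟩
    rw [sum_epsSet_eq_iff]
    intro b
    by_cases hb : ∃ a, φ a = b
    · obtain ⟨a, rfl⟩ := hb
      rw [extMult_apply hφ, ← hκ'.1 a]
      congr 1
      ext i
      simp only [mem_filter, mem_univ, true_and]
      exact mem_famOf hφ κ i a
    · rw [not_exists] at hb
      rw [extMult_of_notMem m hb, Finset.card_eq_zero, Finset.filter_eq_empty_iff]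
      intro i _ hi
      obtain ⟨a, _, ha⟩ := Finset.mem_image.1 hi
      exact hb a ha
  · intro κ _ κ' _ hκκ
    funext a
    ext i
    rw [← mem_famOf hφ κ i a, ← mem_famOf hφ κ' i a]
    have : famOf φ κ = famOf φ κ' := hκκ
    rw [this]
  · intro I hI
    simp only [mem_filter, mem_univ, true_and] at hI
    obtain ⟨hst, hsum⟩ := hI
    rw [sum_epsSet_eq_iff] at hsum
    let κ : Fin n → Finset (Fin M) := fun a => univ.filter (fun i => φ a ∈ I i)
    have hIκ : famOf φ κ = I := by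
      funext i
      ext b
      simp only [famOf, κ, mem_image, mem_filter, mem_univ, true_and]
      constructor
      · rintro ⟨a, ha, rfl⟩
        exact ha
      · intro hb
        by_cases hex : ∃ a, φ a = b
        · obtain ⟨a, rfl⟩ := hex
          exact ⟨a, hb, rfl⟩
        · rw [not_exists] at hex
          have h2 := hsum b
          rw [extMult_of_notMem m hex, Finset.card_eq_zero, Finset.filter_eq_empty_iff] at h2
          exact absurd hb (h2 (Finset.mem_univ i))
    refine ⟨κ, ?_, hIκ⟩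
    simp only [mem_filter, mem_univ, true_and]
    refine ⟨fun a => ?_, ?_⟩
    · rw [← extMult_apply hφ m a]
      exact hsum (φ a)
    · have key : ∀ a b, a < b → (unitIntervalGraph h).Adj a b → Disjoint (κ a) (κ b) := by
        intro a b hab hadj
        rw [Finset.disjoint_left]
        intro i hi hj
        have h2 := (adj_iff_of_lt hh hab).1 hadj
        have h3 := hst i (φ a) (Finset.mem_filter.1 hi).2 (φ b) (Finset.mem_filter.1 hj).2
          (hφ hab)
        omega
      intro a b hadj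
      rcases lt_trichotomy a b with hab | hab | hab
      · exact key a b hab hadj
      · subst hab
        exact absurd hadj ((unitIntervalGraph h).irrefl)
      · exact (key b a hab hadj.symm).symm
  · intro κ hκ
    have hκ' := (Finset.mem_filter.1 hκ).2
    rw [famWeight_famOf hφ hh m κ hκ']
    congr 1
    have h1 : ∀ a : Fin n, ∏ i ∈ κ a, (MvPolynomial.X i : MvPolynomial (Fin M) K) =
        ∏ i : Fin M, if i ∈ κ a then MvPolynomial.X i else 1 := by
      intro a
      rw [Finset.prod_ite_mem, univ_inter]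
    have h2 : ∀ i : Fin M, (MvPolynomial.X i : MvPolynomial (Fin M) K) ^ (famOf φ κ i).card =
        ∏ a : Fin n, if i ∈ κ a then MvPolynomial.X i else 1 := by
      intro i
      unfold famOf
      rw [Finset.card_image_of_injective _ hφ.injective, ← Finset.prod_const,
        Finset.prod_filter]
    simp only [h1, h2]
    rw [Finset.prod_comm]

end Vale.Agent.P066.Multi
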