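import Vale.Agent.P066.Theta.Top3
import Vale.Agent.P066.Lab.LA
import Vale.Agent.P066.Lab.LSW.W2
import Vale.Agent.P066.Lab.LSW.W4
import Vale.Agent.P066.Lab.H69.W1
import Vale.Agent.P066.Lab.H402.W0
import Vale.Agent.P066.Lab.H66.W3
import Vale.Agent.P066.Multi.Expand

/-!
# The main identity holds for all graphs `P_{N,k}`
-/

set_option autoImplicit false

open Finset

namespace Vale.Agent.P066.Multi

open Vale.Agent.P066 Vale.Agent.P066.Theta

theorem localTheorem : LocalTheorem :=
  Lab.localTheorem_of_LA_LS Lab.HN.laout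
    (Lab.LSW.w4 Lab.H402.w0 Lab.H69.w1 Lab.LSW.w2a Lab.LSW.w2b Lab.LSW.H66.w3)

theorem mainId (N k : ℕ) (hN : 1 ≤ N) (hk : 1 ≤ k) : MainId N k := by
  obtain ⟨T⟩ := thetaData_of_good
    (goodElement_of_u5 u3Prop u4Prop u5Prop localTheorem N k hN hk) (s3bPos N k) (s3bStr N k)
  exact ⟨T.th, fun γ η => (T.th_pos γ η).posL,
    fun M η => main_identity_of_class T M (s6bProp N k T hk M) η⟩

/-- The theorem for multicolourings. -/
theorem multi {n : ℕ} (h : Fin n → Fin n) (hmono : Monotone h) (m : Fin n → ℕ) :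
    ∃ c : (∑ a, m a).Partition → Polynomial ℤ, (∀ p k, 0 ≤ (c p).coeff k) ∧
      ∀ c' : (∑ a, m a).Partition → Polynomial ℤ,
        (∀ N, multichromaticQSF (unitIntervalGraph h) m N =
          ∑ p : (∑ a, m a).Partition,
            MvPolynomial.C (c' p) * MvPolynomial.esymmPart (Fin N) (Polynomial ℤ) p) ↔
          c' = c :=
  multi_of_mainId mainId h hmono m

end Vale.Agent.P066.Multi
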