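import Vale.Agent.P066.Multi.Defs
import Mathlib.RingTheory.MvPowerSeries.Rename

/-!
# Countably many variables: restriction to the first `N` variables
-/

set_option autoImplicit false

open Finset

namespace Vale.Agent.P066.Multi

namespace SeriesIff

/-- Restriction to the first `N` variables. -/
noncomputable def res (N : ℕ) :
    MvPowerSeries ℕ (Polynomial ℤ) →ₐ[Polynomial ℤ] MvPowerSeries (Fin N) (Polynomial ℤ) :=
  MvPowerSeries.killCompl (Fin.valEmbedding : Fin N ↪ ℕ)

theorem coeff_res (N : ℕ) (φ : MvPowerSeries ℕ (Polynomial ℤ)) (x : Fin N →₀ ℕ) :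
    MvPowerSeries.coeff x (res N φ) =
      φ (Finsupp.embDomain (Fin.valEmbedding : Fin N ↪ ℕ) x) := rfl

theorem ext_res {φ ψ : MvPowerSeries ℕ (Polynomial ℤ)} (h : ∀ N, res N φ = res N ψ) : φ = ψ := by
  refine MvPowerSeries.ext fun μ => ?_
  obtain ⟨N, hN⟩ : ∃ N : ℕ, ∀ i ∈ μ.support, i < N :=
    ⟨μ.support.sup id + 1, fun i hi => Nat.lt_succ_of_le (Finset.le_sup (f := id) hi)⟩
  have hinj : Set.InjOn (Fin.valEmbedding : Fin N ↪ ℕ)
      ((Fin.valEmbedding : Fin N ↪ ℕ) ⁻¹' (μ.support : Set ℕ)) :=
    (Fin.valEmbedding : Fin N ↪ ℕ).injective.injOn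
  have hμ : Finsupp.embDomain (Fin.valEmbedding : Fin N ↪ ℕ)
      (Finsupp.comapDomain (Fin.valEmbedding : Fin N ↪ ℕ) μ hinj) = μ := by
    ext i
    by_cases hi : i < N
    · have := Finsupp.embDomain_apply_self (Fin.valEmbedding : Fin N ↪ ℕ)
        (Finsupp.comapDomain (Fin.valEmbedding : Fin N ↪ ℕ) μ hinj) ⟨i, hi⟩
      simpa using this
    · rw [Finsupp.embDomain_of_notMem_range]
      · by_contra hne
        exact hi (hN i (Finsupp.mem_support_iff.2 (fun h0 => hne h0.symm)))
      · rintro ⟨j, hj⟩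
        exact hi (hj ▸ j.2)
  have := congrArg (MvPowerSeries.coeff
    (Finsupp.comapDomain (Fin.valEmbedding : Fin N ↪ ℕ) μ hinj)) (h N)
  rw [coeff_res, coeff_res, hμ] at this
  exact this

theorem res_eSeries (N k : ℕ) :
    res N (eSeries k) =
      ((MvPolynomial.esymm (Fin N) (Polynomial ℤ) k : MvPolynomial (Fin N) (Polynomial ℤ)) :
        MvPowerSeries (Fin N) (Polynomial ℤ)) := by
  classical
  refine MvPowerSeries.ext fun x => ?_
  rw [coeff_res, MvPolynomial.coeff_coe, MvPolynomial.esymm_eq_sum_monomial,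
    MvPolynomial.coeff_sum]
  simp only [MvPolynomial.coeff_monomial]
  have hcond : ((∀ i, Finsupp.embDomain (Fin.valEmbedding : Fin N ↪ ℕ) x i ≤ 1) ∧
      ((Finsupp.embDomain (Fin.valEmbedding : Fin N ↪ ℕ) x).sum fun _ c => c) = k) ↔
      ((∀ i, x i ≤ 1) ∧ (x.sum fun _ c => c) = k) := by
    refine and_congr ⟨fun h i => ?_, fun h i => ?_⟩ ?_
    · have := h (Fin.valEmbedding i)
      rwa [Finsupp.embDomain_apply_self] at this
    · by_cases hi : i ∈ Set.range (Fin.valEmbedding : Fin N ↪ ℕ)
      · obtain ⟨j, rfl⟩ := hi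
        rw [Finsupp.embDomain_apply_self]
        exact h j
      · rw [Finsupp.embDomain_of_notMem_range _ _ _ hi]
        exact Nat.zero_le _
    · rw [Finsupp.sum_embDomain]
  have hL : eSeries k (Finsupp.embDomain (Fin.valEmbedding : Fin N ↪ ℕ) x) =
      if ((∀ i, x i ≤ 1) ∧ (x.sum fun _ c => c) = k) then 1 else 0 := by
    unfold eSeries
    exact if_congr hcond rfl rfl
  rw [hL]
  have hsum : ∀ t : Finset (Fin N), ∀ i, (∑ j ∈ t, Finsupp.single j 1 : Fin N →₀ ℕ) i =
      if i ∈ t then 1 else 0 := by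
    intro t i
    rw [Finsupp.finsetSum_apply]
    simp [Finsupp.single_apply]
  by_cases hx : (∀ i, x i ≤ 1) ∧ (x.sum fun _ c => c) = k
  · rw [if_pos hx]
    have hxs : x = ∑ j ∈ x.support, Finsupp.single j 1 := by
      ext i
      rw [hsum]
      by_cases hi : i ∈ x.support
      · rw [if_pos hi]
        have := hx.1 i
        have := Finsupp.mem_support_iff.1 hi
        omega
      · rw [if_neg hi]
        simpa using hi
    have hcard : x.support.card = k := by
      rw [← hx.2, Finsupp.sum, Finset.card_eq_sum_ones]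
      refine Finset.sum_congr rfl fun i hi => ?_
      have := hx.1 i
      have := Finsupp.mem_support_iff.1 hi
      omega
    rw [Finset.sum_eq_single x.support]
    · rw [if_pos hxs.symm]
    · intro t _ htx
      rw [if_neg]
      intro h
      apply htx
      ext i
      have := hsum t i
      rw [h] at this
      rw [Finsupp.mem_support_iff, this]
      by_cases hi : i ∈ t <;> simp [hi]
    · intro h
      exact absurd (Finset.mem_powersetCard.2 ⟨Finset.subset_univ _, hcard⟩) h
  · rw [if_neg hx]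
    symm
    refine Finset.sum_eq_zero fun t ht => ?_
    rw [if_neg]
    intro h
    apply hx
    subst h
    refine ⟨fun i => ?_, ?_⟩
    · rw [hsum]
      split_ifs <;> omega
    · rw [Finsupp.sum_fintype _ _ (fun _ => rfl)]
      simp only [hsum]
      rw [Finset.sum_boole, ← (Finset.mem_powersetCard.1 ht).2]
      simp

theorem res_eSeriesPart (N : ℕ) {k : ℕ} (p : k.Partition) :
    res N (eSeriesPart p) =
      ((MvPolynomial.esymmPart (Fin N) (Polynomial ℤ) p : MvPolynomial (Fin N) (Polynomial ℤ)) :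
        MvPowerSeries (Fin N) (Polynomial ℤ)) := by
  unfold eSeriesPart MvPolynomial.esymmPart
  rw [map_multiset_prod, ← MvPolynomial.coeToMvPowerSeries.ringHom_apply, map_multiset_prod,
    Multiset.map_map, Multiset.map_map]
  refine congrArg Multiset.prod (Multiset.map_congr rfl fun i _ => ?_)
  exact res_eSeries N i

theorem res_chromatic {n : ℕ} (G : SimpleGraph (Fin n)) (N : ℕ) :
    res N (chromaticSeries G) =
      ((chromaticQSF G N : MvPolynomial (Fin N) (Polynomial ℤ)) :
        MvPowerSeries (Fin N) (Polynomial ℤ)) := by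
  classical
  refine MvPowerSeries.ext fun x => ?_
  rw [coeff_res, MvPolynomial.coeff_coe]
  have hmon : ∀ g : Fin n → Fin N, (∏ a, MvPolynomial.X (g a) : MvPolynomial (Fin N)
      (Polynomial ℤ)) = MvPolynomial.monomial (∑ a, Finsupp.single (g a) 1) 1 := by
    intro g
    rw [MvPolynomial.monomial_sum_one]
    rfl
  have hR : MvPolynomial.coeff x (chromaticQSF G N) =
      ∑ g : Fin n → Fin N with (∀ a b, G.Adj a b → g a ≠ g b) ∧
        (∑ a, Finsupp.single (g a) 1 : Fin N →₀ ℕ) = x,
        (Polynomial.X : Polynomial ℤ) ^ asc G g := by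
    unfold chromaticQSF
    rw [MvPolynomial.coeff_sum, ← Finset.filter_filter, Finset.sum_filter
      (p := fun g : Fin n → Fin N => (∑ a, Finsupp.single (g a) 1 : Fin N →₀ ℕ) = x)]
    refine Finset.sum_congr rfl fun g _ => ?_
    rw [MvPolynomial.coeff_C_mul, hmon, MvPolynomial.coeff_monomial]
    split_ifs <;> simp
  have hval : ∀ (g : Fin n → Fin N) (i : Fin N),
      (∑ a, Finsupp.single (g a) 1 : Fin N →₀ ℕ) i = #{a : Fin n | g a = i} := by
    intro g i
    rw [Finsupp.finsetSum_apply, Finset.card_filter]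
    refine Finset.sum_congr rfl fun a _ => ?_
    rw [Finsupp.single_apply]
  rw [hR]
  unfold chromaticSeries
  symm
  refine Finset.sum_bij (fun g _ a => ((g a : Fin N) : ℕ)) ?_ ?_ ?_ ?_
  · intro g hg
    obtain ⟨hprop, hsum⟩ := (Finset.mem_filter.1 hg).2
    have hcount : ∀ i : Fin N, #{a : Fin n | g a = i} = x i := fun i => by
      rw [← hval, hsum]
    refine Finset.mem_filter.2 ⟨Fintype.mem_piFinset.2 fun a => ?_, fun a b hab h => ?_,
      fun i => ?_⟩
    · rw [Finsupp.support_embDomain]
      refine Finset.mem_map.2 ⟨g a, Finsupp.mem_support_iff.2 ?_, rfl⟩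
      rw [← hcount]
      have ha : a ∈ ({b : Fin n | g b = g a} : Finset (Fin n)) :=
        Finset.mem_filter.2 ⟨Finset.mem_univ _, rfl⟩
      exact (Finset.card_pos.2 ⟨a, ha⟩).ne'
    · exact hprop a b hab (Fin.ext h)
    · by_cases hi : i < N
      · have h1 := Finsupp.embDomain_apply_self (Fin.valEmbedding : Fin N ↪ ℕ) x ⟨i, hi⟩
        have h2 : (Fin.valEmbedding : Fin N ↪ ℕ) ⟨i, hi⟩ = i := rfl
        rw [h2] at h1
        rw [h1, ← hcount]
        refine congrArg Finset.card (Finset.filter_congr fun a _ => ?_)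
        rw [Fin.ext_iff]
      · rw [Finsupp.embDomain_of_notMem_range]
        · refine Finset.card_eq_zero.2 (Finset.filter_eq_empty_iff.2 fun a _ h => ?_)
          exact hi (h ▸ (g a).2)
        · rintro ⟨j, hj⟩
          exact hi (hj ▸ j.2)
  · intro g₁ _ g₂ _ h
    funext a
    exact Fin.ext (congrFun h a)
  · intro f hf
    obtain ⟨hmem, hprop, hcount⟩ := Finset.mem_filter.1 hf
    have hlt : ∀ a, ∃ j : Fin N, (j : ℕ) = f a := by
      intro a
      have := Fintype.mem_piFinset.1 hmem a
      rw [Finsupp.support_embDomain] at this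
      obtain ⟨j, -, hj⟩ := Finset.mem_map.1 this
      exact ⟨j, hj⟩
    choose g hg using hlt
    refine ⟨g, Finset.mem_filter.2 ⟨Finset.mem_univ _, fun a b hab h => ?_, ?_⟩, funext hg⟩
    · exact hprop a b hab (by rw [← hg, ← hg, h])
    · ext i
      rw [hval]
      have h1 := Finsupp.embDomain_apply_self (Fin.valEmbedding : Fin N ↪ ℕ) x i
      rw [← h1]
      have h2 : (Fin.valEmbedding : Fin N ↪ ℕ) i = (i : ℕ) := rfl
      rw [h2, ← hcount]
      refine congrArg Finset.card (Finset.filter_congr fun a _ => ?_)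
      rw [Fin.ext_iff, hg]
  · intro g _
    unfold asc
    refine congrArg (fun k : ℕ => (Polynomial.X : Polynomial ℤ) ^ k)
      (congrArg Finset.card (Finset.filter_congr fun p _ => ?_))
    exact Iff.rfl

end SeriesIff

open SeriesIff in
theorem series_iff {n : ℕ} (G : SimpleGraph (Fin n)) (c : n.Partition → Polynomial ℤ) :
    chromaticSeries G = ∑ p : n.Partition, MvPowerSeries.C (c p) * eSeriesPart p ↔
      ∀ N, chromaticQSF G N = ∑ p : n.Partition,
        MvPolynomial.C (c p) * MvPolynomial.esymmPart (Fin N) (Polynomial ℤ) p := by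
  have key : ∀ N, res N (∑ p : n.Partition, MvPowerSeries.C (c p) * eSeriesPart p) =
      ((∑ p : n.Partition, MvPolynomial.C (c p) *
        MvPolynomial.esymmPart (Fin N) (Polynomial ℤ) p : MvPolynomial (Fin N) (Polynomial ℤ)) :
        MvPowerSeries (Fin N) (Polynomial ℤ)) := by
    intro N
    rw [map_sum, ← MvPolynomial.coeToMvPowerSeries.ringHom_apply, map_sum]
    refine Finset.sum_congr rfl fun p _ => ?_
    rw [map_mul, map_mul, res_eSeriesPart, MvPolynomial.coeToMvPowerSeries.ringHom_apply,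
      MvPolynomial.coeToMvPowerSeries.ringHom_apply, MvPolynomial.coe_C]
    congr 1
    exact MvPowerSeries.killCompl_C _
  constructor
  · intro h N
    refine MvPolynomial.coe_injective _ _ ?_
    rw [← res_chromatic, ← key, h]
  · intro h
    refine ext_res fun N => ?_
    rw [res_chromatic, key, h N]

end Vale.Agent.P066.Multi
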