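import Vale.Agent.P066.Multi.Defs

/-!
# Multicolourings: the usual colourings, and merging of a vertex of weight one
-/

set_option autoImplicit false

open Finset

namespace Vale.Agent.P066.Multi

/-- T0 -/
theorem chromatic_eq_multi_one {n : ℕ} (G : SimpleGraph (Fin n)) (N : ℕ) :
    chromaticQSF G N = multichromaticQSF G (fun _ => 1) N := by
  classical
  unfold chromaticQSF multichromaticQSF
  refine Finset.sum_bij (fun f _ => fun a => ({f a} : Finset (Fin N))) ?_ ?_ ?_ ?_
  · intro f hf
    rw [mem_filter] at hf ⊢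
    refine ⟨mem_univ _, fun a => card_singleton _, fun a b hab => ?_⟩
    rw [disjoint_singleton]
    exact hf.2 a b hab
  · intro f _ g _ hfg
    funext a
    exact singleton_injective (congrFun hfg a)
  · intro κ hκ
    rw [mem_filter] at hκ
    obtain ⟨_, hc, hd⟩ := hκ
    choose f hf using fun a => card_eq_one.mp (hc a)
    refine ⟨f, ?_, ?_⟩
    · rw [mem_filter]
      refine ⟨mem_univ _, fun a b hab => ?_⟩
      have := hd a b hab
      rw [hf a, hf b, disjoint_singleton] at this
      exact this
    · funext a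
      exact (hf a).symm
  · intro f _
    have h1 : multiAsc G (fun a => ({f a} : Finset (Fin N))) = asc G f := by
      unfold multiAsc asc
      refine Finset.card_bij' (fun p _ => p.1) (fun p _ => (p, (f p.1, f p.2))) ?_ ?_ ?_ ?_
      · rintro ⟨⟨a, b⟩, ⟨i, j⟩⟩ hp
        simp only [mem_filter, mem_univ, true_and, mem_singleton] at hp ⊢
        obtain ⟨h1, h2, h3, h4, h5⟩ := hp
        subst h3
        subst h4
        exact ⟨h1, h2, h5⟩
      · rintro ⟨a, b⟩ hp
        simp only [mem_filter, mem_univ, true_and, mem_singleton] at hp ⊢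
        exact ⟨hp.1, hp.2.1, hp.2.2⟩
      · rintro ⟨⟨a, b⟩, ⟨i, j⟩⟩ hp
        simp only [mem_filter, mem_univ, true_and, mem_singleton] at hp ⊢
        obtain ⟨h1, h2, h3, h4, h5⟩ := hp
        subst h3
        subst h4
        rfl
      · rintro ⟨a, b⟩ hp
        rfl
    rw [h1]
    simp only [prod_singleton]

/-- The number of pairs `i < j` with `i ∈ S`, `j ∈ T`. -/
noncomputable def inv2 {N : ℕ} (S T : Finset (Fin N)) : ℕ :=
  #{p ∈ S ×ˢ T | p.1 < p.2}

theorem inv2_empty_left {N : ℕ} (T : Finset (Fin N)) : inv2 ∅ T = 0 := by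
  simp [inv2]

theorem inv2_empty_right {N : ℕ} (S : Finset (Fin N)) : inv2 S ∅ = 0 := by
  simp [inv2]

theorem inv2_union_left {N : ℕ} (S S' T : Finset (Fin N)) (h : Disjoint S S') :
    inv2 (S ∪ S') T = inv2 S T + inv2 S' T := by
  classical
  unfold inv2
  rw [union_product, filter_union, card_union_of_disjoint]
  rw [disjoint_left]
  rintro ⟨x, y⟩ h1 h2
  rw [mem_filter, mem_product] at h1 h2
  exact disjoint_left.mp h h1.1.1 h2.1.1

theorem inv2_union_right {N : ℕ} (S T T' : Finset (Fin N)) (h : Disjoint T T') :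
    inv2 S (T ∪ T') = inv2 S T + inv2 S T' := by
  classical
  unfold inv2
  rw [product_union, filter_union, card_union_of_disjoint]
  rw [disjoint_left]
  rintro ⟨x, y⟩ h1 h2
  rw [mem_filter, mem_product] at h1 h2
  exact disjoint_left.mp h h1.1.2 h2.1.2

theorem inv2_singleton {N : ℕ} (S : Finset (Fin N)) (j : Fin N) :
    inv2 S {j} = #{i ∈ S | i < j} := by
  classical
  unfold inv2
  refine Finset.card_bij' (fun p _ => p.1) (fun i _ => (i, j)) ?_ ?_ ?_ ?_
  · rintro ⟨x, y⟩ hp
    simp only [mem_filter, mem_product, mem_singleton] at hp ⊢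
    obtain ⟨⟨h1, h2⟩, h3⟩ := hp
    subst h2
    exact ⟨h1, h3⟩
  · intro i hi
    simp only [mem_filter, mem_product, mem_singleton] at hi ⊢
    exact ⟨⟨hi.1, trivial⟩, hi.2⟩
  · rintro ⟨x, y⟩ hp
    simp only [mem_filter, mem_product, mem_singleton] at hp ⊢
    obtain ⟨⟨h1, h2⟩, h3⟩ := hp
    subst h2
    rfl
  · intro i hi
    rfl

open Classical in
/-- The contribution of the ordered pair `(x, y)` to the number of ascents. -/
noncomputable def contr {n N : ℕ} (G : SimpleGraph (Fin n)) (κ : Fin n → Finset (Fin N))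
    (x y : Fin n) : ℕ :=
  if x < y ∧ G.Adj x y then inv2 (κ x) (κ y) else 0

theorem multiAsc_eq {n N : ℕ} (G : SimpleGraph (Fin n)) (κ : Fin n → Finset (Fin N)) :
    multiAsc G κ = ∑ x, ∑ y, contr G κ x y := by
  classical
  unfold multiAsc
  rw [← Fintype.sum_prod_type']
  rw [card_eq_sum_card_fiberwise (f := fun p : (Fin n × Fin n) × (Fin N × Fin N) => p.1)
    (t := univ) (fun _ _ => mem_univ _)]
  refine sum_congr rfl fun xy _ => ?_
  obtain ⟨x, y⟩ := xy
  unfold contr
  split_ifs with h
  · unfold inv2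
    refine Finset.card_bij' (fun p _ => p.2) (fun q _ => ((x, y), q)) ?_ ?_ ?_ ?_
    · rintro ⟨⟨a, b⟩, ⟨i, j⟩⟩ hp
      simp only [mem_filter, mem_univ, true_and, mem_product, Prod.mk.injEq] at hp ⊢
      obtain ⟨⟨h1, h2, h3, h4, h5⟩, h6, h7⟩ := hp
      subst h6
      subst h7
      exact ⟨⟨h3, h4⟩, h5⟩
    · rintro ⟨i, j⟩ hp
      simp only [mem_filter, mem_univ, true_and, mem_product] at hp ⊢
      exact ⟨⟨h.1, h.2, hp.1.1, hp.1.2, hp.2⟩, trivial⟩
    · rintro ⟨⟨a, b⟩, ⟨i, j⟩⟩ hp
      simp only [mem_filter, mem_univ, true_and, Prod.mk.injEq] at hp ⊢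
      obtain ⟨⟨h1, h2, h3, h4, h5⟩, h6, h7⟩ := hp
      subst h6
      subst h7
      simp
    · rintro ⟨i, j⟩ hp
      rfl
  · rw [card_eq_zero, filter_eq_empty_iff]
    rintro ⟨⟨a, b⟩, ⟨i, j⟩⟩ hp h6
    simp only [mem_filter, mem_univ, true_and, Prod.mk.injEq] at hp h6
    obtain ⟨h1, h2, h3, h4, h5⟩ := hp
    obtain ⟨h6, h7⟩ := h6
    subst h6
    subst h7
    exact h ⟨h1, h2⟩

theorem rank_sum {N : ℕ} (U : Finset (Fin N)) :
    ∑ j ∈ U, (Polynomial.X : Polynomial ℤ) ^ #{i ∈ U | i < j} = qInt #U := by
  classical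
  induction U using Finset.induction_on_max with
  | empty => simp [qInt]
  | insert M s hM ih =>
    have hMs : M ∉ s := fun h => lt_irrefl M (hM M h)
    rw [sum_insert hMs, card_insert_of_notMem hMs]
    have h1 : #{i ∈ insert M s | i < M} = #s := by
      congr 1
      ext i
      rw [mem_filter, mem_insert]
      constructor
      · rintro ⟨h | h, h'⟩
        · subst h
          exact absurd h' (lt_irrefl _)
        · exact h
      · intro h
        exact ⟨Or.inr h, hM i h⟩
    have h2 : ∀ j ∈ s, #{i ∈ insert M s | i < j} = #{i ∈ s | i < j} := by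
      intro j hj
      congr 1
      ext i
      rw [mem_filter, mem_filter, mem_insert]
      constructor
      · rintro ⟨h | h, h'⟩
        · subst h
          exact absurd (h'.trans (hM j hj)) (lt_irrefl _)
        · exact ⟨h, h'⟩
      · rintro ⟨h, h'⟩
        exact ⟨Or.inr h, h'⟩
    rw [h1, sum_congr rfl fun j hj => by rw [h2 j hj], ih]
    unfold qInt
    rw [sum_range_succ, add_comm]

theorem prod_split2 {n : ℕ} {M : Type*} [CommMonoid M] (f : Fin n → M) {a a' : Fin n}
    (h : a ≠ a') : ∏ x, f x = f a * (f a' * ∏ x ∈ (univ.erase a).erase a', f x) := by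
  rw [mul_prod_erase _ f (mem_erase.mpr ⟨h.symm, mem_univ _⟩), mul_prod_erase _ f (mem_univ a)]

theorem sum_split2 {n : ℕ} {M : Type*} [AddCommMonoid M] (f : Fin n → M) {a a' : Fin n}
    (h : a ≠ a') : ∑ x, f x = f a + (f a' + ∑ x ∈ (univ.erase a).erase a', f x) := by
  rw [add_sum_erase _ f (mem_erase.mpr ⟨h.symm, mem_univ _⟩), add_sum_erase _ f (mem_univ a)]

theorem asc_merge {n N : ℕ} (G : SimpleGraph (Fin n)) (κ κ' : Fin n → Finset (Fin N))
    (a a' : Fin n) (haa : a < a') (hadj : G.Adj a a') (hU : κ' a = κ a ∪ κ a')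
    (hd : Disjoint (κ a) (κ a')) (h0 : κ' a' = ∅)
    (hr : ∀ b, b ≠ a → b ≠ a' → κ' b = κ b)
    (hb : ∀ b, b ≠ a → b ≠ a' → κ b ≠ ∅ →
      ((G.Adj a b ↔ G.Adj a' b) ∧ (b < a ↔ b < a'))) :
    multiAsc G κ = multiAsc G κ' + inv2 (κ a) (κ a') := by
  classical
  have hne : a ≠ a' := haa.ne
  rw [multiAsc_eq, multiAsc_eq]
  have c1 : contr G κ a a = 0 := by simp [contr]
  have c2 : contr G κ a a' = inv2 (κ a) (κ a') := by simp [contr, haa, hadj]
  have c3 : contr G κ a' a = 0 := by simp [contr, haa.not_gt]
  have c4 : contr G κ a' a' = 0 := by simp [contr]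
  have d1 : contr G κ' a a = 0 := by simp [contr]
  have d2 : ∀ x, contr G κ' x a' = 0 := by
    intro x
    simp [contr, h0, inv2_empty_right]
  have d3 : ∀ y, contr G κ' a' y = 0 := by
    intro y
    simp [contr, h0, inv2_empty_left]
  have e1 : ∀ y ∈ (univ.erase a).erase a', contr G κ' a y = contr G κ a y + contr G κ a' y := by
    intro y hy
    rw [mem_erase, mem_erase] at hy
    obtain ⟨hy', hya, _⟩ := hy
    unfold contr
    rw [hr y hya hy', hU, inv2_union_left _ _ _ hd]
    by_cases hκ : κ y = ∅
    · simp [hκ, inv2_empty_right]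
    · obtain ⟨h1, h2⟩ := hb y hya hy' hκ
      have h3 : a < y ↔ a' < y := by
        constructor
        · intro h
          rcases lt_trichotomy y a' with h4 | h4 | h4
          · exact absurd (h2.mpr h4) h.not_gt
          · exact absurd h4 hy'
          · exact h4
        · intro h
          exact haa.trans h
      by_cases hh : a < y ∧ G.Adj a y
      · rw [if_pos hh, if_pos hh, if_pos ⟨h3.mp hh.1, h1.mp hh.2⟩]
      · rw [if_neg hh, if_neg hh, if_neg fun h => hh ⟨h3.mpr h.1, h1.mpr h.2⟩]
  have e2 : ∀ x ∈ (univ.erase a).erase a', contr G κ' x a = contr G κ x a + contr G κ x a' := by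
    intro y hy
    rw [mem_erase, mem_erase] at hy
    obtain ⟨hy', hya, _⟩ := hy
    unfold contr
    rw [hr y hya hy', hU, inv2_union_right _ _ _ hd]
    by_cases hκ : κ y = ∅
    · simp [hκ, inv2_empty_left]
    · obtain ⟨h1, h2⟩ := hb y hya hy' hκ
      by_cases hh : y < a ∧ G.Adj y a
      · rw [if_pos hh, if_pos hh, if_pos ⟨h2.mp hh.1, (h1.mp hh.2.symm).symm⟩]
      · rw [if_neg hh, if_neg hh, if_neg fun h => hh ⟨h2.mpr h.1, (h1.mpr h.2.symm).symm⟩]
  have e3 : ∀ x ∈ (univ.erase a).erase a', ∀ y ∈ (univ.erase a).erase a',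
      contr G κ' x y = contr G κ x y := by
    intro x hx y hy
    rw [mem_erase, mem_erase] at hx hy
    unfold contr
    rw [hr x hx.2.1 hx.1, hr y hy.2.1 hy.1]
  have L : ∑ x, ∑ y, contr G κ x y =
      (0 + (inv2 (κ a) (κ a') + ∑ y ∈ (univ.erase a).erase a', contr G κ a y)) +
      ((0 + (0 + ∑ y ∈ (univ.erase a).erase a', contr G κ a' y)) +
      ∑ x ∈ (univ.erase a).erase a', (contr G κ x a + (contr G κ x a' +
        ∑ y ∈ (univ.erase a).erase a', contr G κ x y))) := by
    rw [sum_split2 _ hne, sum_split2 (fun y => contr G κ a y) hne,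
      sum_split2 (fun y => contr G κ a' y) hne, c1, c2, c3, c4]
    congr 2
    exact sum_congr rfl fun x _ => sum_split2 _ hne
  have R : ∑ x, ∑ y, contr G κ' x y =
      (0 + (0 + ∑ y ∈ (univ.erase a).erase a', (contr G κ a y + contr G κ a' y))) +
      (0 + ∑ x ∈ (univ.erase a).erase a', ((contr G κ x a + contr G κ x a') + (0 +
        ∑ y ∈ (univ.erase a).erase a', contr G κ x y))) := by
    rw [sum_split2 _ hne, sum_split2 (fun y => contr G κ' a y) hne, d1, d2,
      sum_congr rfl e1, sum_congr rfl (fun y _ => d3 y), sum_const_zero]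
    congr 2
    refine sum_congr rfl fun x hx => ?_
    rw [sum_split2 _ hne, e2 x hx, d2, sum_congr rfl (e3 x hx)]
  rw [L, R]
  simp only [sum_add_distrib, zero_add]
  omega

/-- T1: merging the vertex `a'` of weight one into `a`. -/
theorem multi_merge {n : ℕ} (G : SimpleGraph (Fin n)) (m : Fin n → ℕ) (a a' : Fin n)
    (haa : a < a') (hadj : G.Adj a a') (hm : m a' = 1)
    (hb : ∀ b, b ≠ a → b ≠ a' → m b ≠ 0 →
      ((G.Adj a b ↔ G.Adj a' b) ∧ (b < a ↔ b < a'))) (N : ℕ) :
    multichromaticQSF G m N = MvPolynomial.C (qInt (m a + 1)) *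
      multichromaticQSF G (Function.update (Function.update m a (m a + 1)) a' 0) N := by
  classical
  have hne : a ≠ a' := haa.ne
  set m' := Function.update (Function.update m a (m a + 1)) a' 0 with hm'
  have ma : m' a = m a + 1 := by
    rw [hm', Function.update_of_ne hne, Function.update_self]
  have ma' : m' a' = 0 := by
    rw [hm', Function.update_self]
  have mb : ∀ b, b ≠ a → b ≠ a' → m' b = m b := by
    intro b h1 h2
    rw [hm', Function.update_of_ne h2, Function.update_of_ne h1]
  symm
  unfold multichromaticQSF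
  rw [mul_sum]
  have key : ∀ κ' ∈ (univ.filter fun κ : Fin n → Finset (Fin N) => IsMulticolouring G m' κ),
      MvPolynomial.C (qInt (m a + 1)) *
        (MvPolynomial.C (Polynomial.X ^ multiAsc G κ') *
          ∏ a, ∏ i ∈ κ' a, (MvPolynomial.X i : MvPolynomial (Fin N) (Polynomial ℤ))) =
      ∑ j ∈ κ' a, MvPolynomial.C (Polynomial.X ^ #{i ∈ κ' a | i < j}) *
        (MvPolynomial.C (Polynomial.X ^ multiAsc G κ') *
          ∏ a, ∏ i ∈ κ' a, (MvPolynomial.X i : MvPolynomial (Fin N) (Polynomial ℤ))) := by
    intro κ' hκ'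
    rw [mem_filter] at hκ'
    rw [← sum_mul, ← map_sum, rank_sum, hκ'.2.1 a, ma]
  rw [sum_congr rfl key, sum_sigma']
  let g : (Σ _ : Fin n → Finset (Fin N), Fin N) → (Fin n → Finset (Fin N)) := fun p =>
    Function.update (Function.update p.1 a (p.1 a \ {p.2})) a' {p.2}
  have ga : ∀ p, g p a = p.1 a \ {p.2} := by
    intro p
    simp only [g]
    rw [Function.update_of_ne hne, Function.update_self]
  have ga' : ∀ p, g p a' = {p.2} := by
    intro p
    simp only [g]
    rw [Function.update_self]
  have gb : ∀ p b, b ≠ a → b ≠ a' → g p b = p.1 b := by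
    intro p b h1 h2
    simp only [g]
    rw [Function.update_of_ne h2, Function.update_of_ne h1]
  refine Finset.sum_bij (fun p _ => g p) ?_ ?_ ?_ ?_
  · rintro ⟨κ', j⟩ hp
    rw [mem_sigma, mem_filter] at hp
    obtain ⟨⟨_, hc, hd⟩, hj⟩ := hp
    simp only at hc hd hj
    rw [mem_filter]
    refine ⟨mem_univ _, ?_, ?_⟩
    · intro x
      by_cases h2 : x = a'
      · rw [h2, ga', hm, card_singleton]
      by_cases h1 : x = a
      · rw [h1, ga, card_sdiff_of_subset (singleton_subset_iff.mpr hj), card_singleton, hc a, ma]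
        rfl
      · rw [gb _ _ h1 h2, hc x, mb x h1 h2]
    · have A1 : ∀ b, b ≠ a → b ≠ a' → G.Adj a' b → Disjoint ({j} : Finset (Fin N)) (κ' b) := by
        intro b h1 h2 h3
        by_cases h4 : m b = 0
        · have h5 : κ' b = ∅ := by
            rw [← card_eq_zero, hc b, mb b h1 h2, h4]
          rw [h5]
          exact disjoint_empty_right _
        · have h5 := hd a b ((hb b h1 h2 h4).1.mpr h3)
          exact h5.mono_left (singleton_subset_iff.mpr hj)
      have A2 : ∀ b, b ≠ a → b ≠ a' → G.Adj a b → Disjoint (κ' a \ {j}) (κ' b) := by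
        intro b h1 h2 h3
        exact (hd a b h3).mono_left sdiff_subset
      intro x y hxy
      by_cases hx' : x = a'
      · subst hx'
        rw [ga']
        by_cases hy : y = a
        · subst hy
          rw [ga]
          exact disjoint_sdiff
        · have hy' : y ≠ x := hxy.ne.symm
          rw [gb _ _ hy hy']
          exact A1 y hy hy' hxy
      by_cases hy' : y = a'
      · subst hy'
        rw [ga']
        by_cases hx : x = a
        · subst hx
          rw [ga]
          exact sdiff_disjoint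
        · rw [gb _ _ hx hx']
          exact (A1 x hx hx' hxy.symm).symm
      by_cases hx : x = a
      · subst hx
        rw [ga, gb _ _ hxy.ne.symm hy']
        exact A2 y hxy.ne.symm hy' hxy
      by_cases hy : y = a
      · subst hy
        rw [ga, gb _ _ hx hx']
        exact (A2 x hx hx' hxy.symm).symm
      · rw [gb _ _ hx hx', gb _ _ hy hy']
        exact hd x y hxy
  · rintro ⟨κ', j⟩ hp ⟨κ'', j'⟩ hp' heq
    rw [mem_sigma, mem_filter] at hp hp'
    obtain ⟨⟨_, hc, hd⟩, hj⟩ := hp
    obtain ⟨⟨_, hc', hd'⟩, hj'⟩ := hp'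
    simp only at hc hd hj hc' hd' hj'
    have e1 := congrFun heq a'
    simp only [ga'] at e1
    have e2 : j = j' := singleton_injective e1
    subst e2
    have e3 : κ' = κ'' := by
      funext x
      by_cases h2 : x = a'
      · rw [h2]
        have f1 : κ' a' = ∅ := by rw [← card_eq_zero, hc a', ma']
        have f2 : κ'' a' = ∅ := by rw [← card_eq_zero, hc' a', ma']
        rw [f1, f2]
      by_cases h1 : x = a
      · rw [h1]
        have e4 := congrFun heq a
        simp only [ga] at e4
        rw [← sdiff_union_of_subset (singleton_subset_iff.mpr hj), e4,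
          sdiff_union_of_subset (singleton_subset_iff.mpr hj')]
      · have e4 := congrFun heq x
        simp only [gb _ _ h1 h2] at e4
        exact e4
    subst e3
    rfl
  · intro κ hκ
    rw [mem_filter] at hκ
    obtain ⟨_, hc, hd⟩ := hκ
    obtain ⟨j, hj⟩ := card_eq_one.mp ((hc a').trans hm)
    have hja : j ∉ κ a := by
      intro h
      have := hd a a' hadj
      rw [hj, disjoint_singleton_right] at this
      exact this h
    let κ' : Fin n → Finset (Fin N) :=
      Function.update (Function.update κ a (κ a ∪ {j})) a' ∅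
    have ka : κ' a = κ a ∪ {j} := by
      simp only [κ']
      rw [Function.update_of_ne hne, Function.update_self]
    have ka' : κ' a' = ∅ := by
      simp only [κ']
      rw [Function.update_self]
    have kb : ∀ b, b ≠ a → b ≠ a' → κ' b = κ b := by
      intro b h1 h2
      simp only [κ']
      rw [Function.update_of_ne h2, Function.update_of_ne h1]
    refine ⟨⟨κ', j⟩, ?_, ?_⟩
    · rw [mem_sigma, mem_filter]
      refine ⟨⟨mem_univ _, ?_, ?_⟩, ?_⟩
      · intro x
        simp only
        by_cases h2 : x = a'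
        · rw [h2, ka', ma', card_empty]
        by_cases h1 : x = a
        · rw [h1, ka, ma, card_union_of_disjoint (disjoint_singleton_right.mpr hja),
            card_singleton, hc a]
        · rw [kb x h1 h2, hc x, mb x h1 h2]
      · have A1 : ∀ b, b ≠ a → b ≠ a' → G.Adj a b → Disjoint (κ a ∪ {j}) (κ b) := by
          intro b h1 h2 h3
          rw [disjoint_union_left]
          refine ⟨hd a b h3, ?_⟩
          by_cases h4 : m b = 0
          · have h5 : κ b = ∅ := by
              rw [← card_eq_zero, hc b, h4]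
            rw [h5]
            exact disjoint_empty_right _
          · have h5 := hd a' b ((hb b h1 h2 h4).1.mp h3)
            rw [hj] at h5
            exact h5
        intro x y hxy
        simp only
        by_cases hx' : x = a'
        · rw [hx', ka']
          exact disjoint_empty_left _
        by_cases hy' : y = a'
        · rw [hy', ka']
          exact disjoint_empty_right _
        by_cases hx : x = a
        · subst hx
          rw [ka, kb _ hxy.ne.symm hy']
          exact A1 y hxy.ne.symm hy' hxy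
        by_cases hy : y = a
        · subst hy
          rw [ka, kb _ hx hx']
          exact (A1 x hx hx' hxy.symm).symm
        · rw [kb _ hx hx', kb _ hy hy']
          exact hd x y hxy
      · simp only
        rw [ka]
        exact mem_union_right _ (mem_singleton_self j)
    · funext x
      by_cases h2 : x = a'
      · rw [h2, ga', hj]
      by_cases h1 : x = a
      · rw [h1, ga]
        simp only
        rw [ka, union_sdiff_cancel_right (disjoint_singleton_right.mpr hja)]
      · rw [gb _ _ h1 h2]
        simp only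
        rw [kb x h1 h2]
  · rintro ⟨κ', j⟩ hp
    rw [mem_sigma, mem_filter] at hp
    obtain ⟨⟨_, hc, hd⟩, hj⟩ := hp
    simp only at hc hd hj
    have hU : κ' a = κ' a \ {j} ∪ {j} := by
      rw [sdiff_union_of_subset (singleton_subset_iff.mpr hj)]
    have h0 : κ' a' = ∅ := by rw [← card_eq_zero, hc a', ma']
    have h1 : multiAsc G (g ⟨κ', j⟩) = multiAsc G κ' + #{i ∈ κ' a | i < j} := by
      rw [asc_merge G (g ⟨κ', j⟩) κ' a a' haa hadj]
      · rw [ga, ga']
        simp only
        rw [inv2_singleton]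
        congr 2
        ext i
        simp only [mem_filter, mem_sdiff, mem_singleton]
        constructor
        · rintro ⟨⟨h1, _⟩, h2⟩
          exact ⟨h1, h2⟩
        · rintro ⟨h1, h2⟩
          exact ⟨⟨h1, h2.ne⟩, h2⟩
      · rw [ga, ga']
        exact hU
      · rw [ga, ga']
        exact sdiff_disjoint
      · exact h0
      · intro b h1 h2
        rw [gb _ _ h1 h2]
      · intro b h1 h2 h3
        rw [gb _ _ h1 h2] at h3
        simp only at h3
        refine hb b h1 h2 fun h4 => h3 ?_
        rw [← card_eq_zero, hc b, mb b h1 h2, h4]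
    have h2 : ∏ x, ∏ i ∈ κ' x, (MvPolynomial.X i : MvPolynomial (Fin N) (Polynomial ℤ)) =
        ∏ x, ∏ i ∈ g ⟨κ', j⟩ x, (MvPolynomial.X i : MvPolynomial (Fin N) (Polynomial ℤ)) := by
      rw [prod_split2 _ hne, prod_split2 (fun x => ∏ i ∈ g ⟨κ', j⟩ x,
        (MvPolynomial.X i : MvPolynomial (Fin N) (Polynomial ℤ))) hne]
      have h3 : ∏ x ∈ (univ.erase a).erase a', ∏ i ∈ κ' x,
          (MvPolynomial.X i : MvPolynomial (Fin N) (Polynomial ℤ)) =
          ∏ x ∈ (univ.erase a).erase a', ∏ i ∈ g ⟨κ', j⟩ x,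
          (MvPolynomial.X i : MvPolynomial (Fin N) (Polynomial ℤ)) := by
        refine prod_congr rfl fun x hx => ?_
        rw [mem_erase, mem_erase] at hx
        rw [gb _ _ hx.2.1 hx.1]
      rw [h3, ga, ga', h0, prod_empty, one_mul, ← mul_assoc]
      congr 1
      rw [← prod_union sdiff_disjoint, ← hU]
    simp only
    rw [h1, h2, pow_add, map_mul]
    ring

end Vale.Agent.P066.Multi
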