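import Vale.Agent.P066.Multi.T1

/-!
# Contracting the classes of closed twins of a unit interval graph
-/

set_option autoImplicit false

open Finset

namespace Vale.Agent.P066.Multi

section Twins

variable {n : ℕ} {G : SimpleGraph (Fin n)}

theorem Twins.refl (a : Fin n) : Twins G a a := fun _ => Iff.rfl

theorem Twins.symm {a b : Fin n} (h : Twins G a b) : Twins G b a := fun x => (h x).symm

theorem Twins.trans {a b c : Fin n} (h : Twins G a b) (h' : Twins G b c) : Twins G a c :=
  fun x => (h x).trans (h' x)

theorem Twins.adj {a b : Fin n} (h : Twins G a b) (hne : a ≠ b) : G.Adj a b :=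
  ((h b).2 (Or.inl rfl)).resolve_left hne.symm

theorem Twins.adj_iff {a b x : Fin n} (h : Twins G a b) (ha : x ≠ a) (hb : x ≠ b) :
    G.Adj a x ↔ G.Adj b x := by
  have := h x
  simpa [ha, hb] using this

/-- `a` is the least element of its class of closed twins. -/
def IsLeast' (G : SimpleGraph (Fin n)) (a : Fin n) : Prop := ∀ b, Twins G a b → a ≤ b

theorem exists_least (b : Fin n) : ∃ a, IsLeast' G a ∧ Twins G a b := by
  classical
  obtain ⟨a, ha, hmin⟩ := Finset.exists_min_image
    ((univ : Finset (Fin n)).filter fun a => Twins G b a) (fun a => a)
    ⟨b, by simp [Twins.refl]⟩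
  simp only [mem_filter, mem_univ, true_and] at ha hmin
  exact ⟨a, fun c hc => hmin c (ha.trans hc), ha.symm⟩

theorem IsLeast'.eq {a c : Fin n} (ha : IsLeast' G a) (hc : IsLeast' G c) (h : Twins G a c) :
    a = c := le_antisymm (ha c h) (hc a h.symm)

end Twins

open Classical in
/-- The size of the class of `a` if `a` is the least element of its class, and `0` otherwise. -/
noncomputable def twinWeight {n : ℕ} (G : SimpleGraph (Fin n)) (a : Fin n) : ℕ :=
  if ∀ b, Twins G a b → a ≤ b then #{b : Fin n | Twins G a b} else 0

/-- T2 -/
theorem sum_twinWeight {n : ℕ} (G : SimpleGraph (Fin n)) : ∑ a, twinWeight G a = n := by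
  classical
  have h1 : ∀ a, twinWeight G a =
      ∑ b : Fin n, if (IsLeast' G a ∧ Twins G a b) then 1 else 0 := by
    intro a
    unfold twinWeight
    by_cases h : IsLeast' G a
    · rw [if_pos (show ∀ b, Twins G a b → a ≤ b from h), Finset.card_filter]
      refine Finset.sum_congr rfl fun b _ => ?_
      by_cases hb : Twins G a b
      · rw [if_pos hb, if_pos ⟨h, hb⟩]
      · rw [if_neg hb, if_neg fun h => hb h.2]
    · rw [if_neg (show ¬ ∀ b, Twins G a b → a ≤ b from h)]
      refine (Finset.sum_eq_zero fun b _ => ?_).symm
      rw [if_neg fun h' => h h'.1]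
  simp_rw [h1]
  rw [Finset.sum_comm]
  have h2 : ∀ b : Fin n, (∑ a : Fin n, if (IsLeast' G a ∧ Twins G a b) then 1 else 0) = 1 := by
    intro b
    obtain ⟨a, ha, hab⟩ := exists_least (G := G) b
    rw [Finset.sum_eq_single a]
    · rw [if_pos ⟨ha, hab⟩]
    · intro c _ hc
      rw [if_neg]
      rintro ⟨hc1, hc2⟩
      exact hc (hc1.eq ha (hc2.trans hab.symm))
    · intro h
      exact absurd (mem_univ a) h
  simp [h2]

section Interval

variable {n : ℕ}

/-- A vertex between two closed twins of a unit interval graph is a closed twin of them. -/
theorem twins_between {h : Fin n → Fin n} (hmono : Monotone h) {a b a' : Fin n}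
    (hab : a < b) (hba : b < a') (ht : Twins (unitIntervalGraph h) a a') :
    Twins (unitIntervalGraph h) a b := by
  have hadj : a' ≤ h a := by
    rcases ht.adj (hab.trans hba).ne with h1 | h1
    · exact h1.2
    · exact absurd (hab.trans hba) (not_lt.2 h1.1.le)
  have h1 : h a ≤ h b := hmono hab.le
  have h2 : h b ≤ h a' := hmono hba.le
  intro x
  have hx := ht x
  simp only [unitIntervalGraph] at hx ⊢
  have hxa : a ≤ x → h a ≤ h x := fun h' => hmono h'
  have hxb : b ≤ x → h b ≤ h x := fun h' => hmono h'
  omega

end Interval

section Contract

variable {n : ℕ}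

open Classical in
/-- The weights after the vertices below `j` have been merged into the least elements of their
classes. -/
noncomputable def stepWeight (G : SimpleGraph (Fin n)) (j : ℕ) (a : Fin n) : ℕ :=
  if j ≤ a.val then 1 else if IsLeast' G a then #{b : Fin n | b.val < j ∧ Twins G a b} else 0

theorem stepWeight_zero (G : SimpleGraph (Fin n)) : stepWeight G 0 = fun _ => 1 := by
  funext a
  simp [stepWeight]

theorem stepWeight_top (G : SimpleGraph (Fin n)) : stepWeight G n = twinWeight G := by
  funext a
  unfold stepWeight twinWeight IsLeast'
  rw [if_neg (not_le.2 a.isLt)]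
  split_ifs with h
  · congr 1
    ext b
    simp
  · rfl

open Classical in
/-- The product of the factors of the vertices below `j`. -/
noncomputable def stepFactor (G : SimpleGraph (Fin n)) (j : ℕ) : Polynomial ℤ :=
  ∏ a : Fin n with a.val < j, qInt #{b : Fin n | b ≤ a ∧ Twins G a b}

theorem stepFactor_zero (G : SimpleGraph (Fin n)) : stepFactor G 0 = 1 := by
  simp [stepFactor]

theorem stepFactor_top (G : SimpleGraph (Fin n)) : stepFactor G n = twinFactor G := by
  unfold stepFactor twinFactor
  refine Finset.prod_congr ?_ fun a _ => ?_
  · ext a
    simp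
  · rfl

open Classical in
theorem stepFactor_succ (G : SimpleGraph (Fin n)) (a : Fin n) :
    stepFactor G (a.val + 1) =
      stepFactor G a.val * qInt #{b : Fin n | b ≤ a ∧ Twins G a b} := by
  unfold stepFactor
  have : (univ.filter fun b : Fin n => b.val < a.val + 1) =
      insert a (univ.filter fun b : Fin n => b.val < a.val) := by
    ext b
    simp only [mem_filter, mem_univ, true_and, mem_insert, Fin.ext_iff]
    omega
  rw [this, Finset.prod_insert (by simp), mul_comm]

theorem qInt_one : qInt 1 = 1 := by simp [qInt]

theorem step {h : Fin n → Fin n} (hmono : Monotone h) (N : ℕ) (a' : Fin n) :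
    ∃ k : ℕ, multichromaticQSF (unitIntervalGraph h) (stepWeight (unitIntervalGraph h) a'.val) N =
      MvPolynomial.C (qInt k) *
        multichromaticQSF (unitIntervalGraph h)
          (stepWeight (unitIntervalGraph h) (a'.val + 1)) N ∧
      stepFactor (unitIntervalGraph h) (a'.val + 1) =
        stepFactor (unitIntervalGraph h) a'.val * qInt k := by
  classical
  set G := unitIntervalGraph h with hG
  refine ⟨#{b : Fin n | b ≤ a' ∧ Twins G a' b}, ?_, ?_⟩
  swap
  · rw [stepFactor_succ]
  by_cases hl : IsLeast' G a'
  · -- nothing changes
    have hcard : #{b : Fin n | b ≤ a' ∧ Twins G a' b} = 1 := by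
      rw [Finset.card_eq_one]
      refine ⟨a', ?_⟩
      ext b
      simp only [mem_filter, mem_univ, true_and, mem_singleton]
      constructor
      · rintro ⟨h1, h2⟩
        exact le_antisymm h1 (hl b h2)
      · rintro rfl
        exact ⟨le_refl _, Twins.refl _⟩
    have hw : stepWeight G (a'.val + 1) = stepWeight G a'.val := by
      funext c
      unfold stepWeight
      rcases lt_trichotomy c a' with hc | hc | hc
      · have hc1 : ¬ (a'.val + 1 ≤ c.val) := by
          have : c.val < a'.val := hc
          omega
        have hc2 : ¬ (a'.val ≤ c.val) := not_le.2 hc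
        rw [if_neg hc1, if_neg hc2]
        split_ifs with hcl
        · congr 1
          ext b
          simp only [mem_filter, mem_univ, true_and]
          constructor
          · rintro ⟨h1, h2⟩
            refine ⟨?_, h2⟩
            rcases Nat.lt_succ_iff_lt_or_eq.1 h1 with h3 | h3
            · exact h3
            · exfalso
              have hb : b = a' := Fin.ext h3
              subst hb
              exact absurd (hl c h2.symm) (not_le.2 hc)
          · rintro ⟨h1, h2⟩
            exact ⟨by omega, h2⟩
        · rfl
      · subst hc
        rw [if_neg (by omega), if_pos (le_refl _), if_pos hl]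
        rw [Finset.card_eq_one]
        refine ⟨c, ?_⟩
        ext b
        simp only [mem_filter, mem_univ, true_and, mem_singleton]
        constructor
        · rintro ⟨h1, h2⟩
          exact le_antisymm (Fin.le_def.2 (by omega)) (hl b h2)
        · rintro rfl
          exact ⟨by omega, Twins.refl _⟩
      · have hc1 : a'.val + 1 ≤ c.val := hc
        rw [if_pos hc1, if_pos (by omega)]
    rw [hcard, hw, qInt_one, map_one, one_mul]
  · -- merge `a'` into the least element of its class
    obtain ⟨a, ha, haa'⟩ := exists_least (G := G) a'
    have hne : a ≠ a' := fun h' => hl (h' ▸ ha)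
    have hlt : a < a' := lt_of_le_of_ne (ha a' haa') hne
    have hadj : G.Adj a a' := haa'.adj hne
    have hwa : stepWeight G a'.val a = #{b : Fin n | b.val < a'.val ∧ Twins G a b} := by
      unfold stepWeight
      rw [if_neg (show ¬ (a'.val ≤ a.val) from not_le.2 hlt), if_pos ha]
    have hwa' : stepWeight G a'.val a' = 1 := by
      unfold stepWeight
      rw [if_pos (le_refl _)]
    have hcard : #{b : Fin n | b ≤ a' ∧ Twins G a' b} = stepWeight G a'.val a + 1 := by
      rw [hwa]
      have : (univ.filter fun b : Fin n => b ≤ a' ∧ Twins G a' b) =
          insert a' (univ.filter fun b : Fin n => b.val < a'.val ∧ Twins G a b) := by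
        ext b
        simp only [mem_filter, mem_univ, true_and, mem_insert]
        constructor
        · rintro ⟨h1, h2⟩
          rcases h1.lt_or_eq with h3 | h3
          · exact Or.inr ⟨h3, haa'.trans h2⟩
          · exact Or.inl h3
        · rintro (h1 | ⟨h1, h2⟩)
          · subst h1
            exact ⟨le_refl _, Twins.refl _⟩
          · exact ⟨(Fin.lt_def.2 h1).le, haa'.symm.trans h2⟩
      rw [this, Finset.card_insert_of_notMem (by simp)]
    have hw : Function.update (Function.update (stepWeight G a'.val) a
        (stepWeight G a'.val a + 1)) a' 0 = stepWeight G (a'.val + 1) := by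
      funext c
      by_cases hc : c = a'
      · subst hc
        rw [Function.update_self]
        unfold stepWeight
        rw [if_neg (by omega), if_neg hl]
      · rw [Function.update_of_ne hc]
        by_cases hca : c = a
        · subst hca
          rw [Function.update_self, hwa]
          have hlt' : c.val < a'.val := hlt
          unfold stepWeight
          rw [if_neg (by omega), if_pos ha]
          have : (univ.filter fun b : Fin n => b.val < a'.val + 1 ∧ Twins G c b) =
              insert a' (univ.filter fun b : Fin n => b.val < a'.val ∧ Twins G c b) := by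
            ext b
            simp only [mem_filter, mem_univ, true_and, mem_insert]
            constructor
            · rintro ⟨h1, h2⟩
              rcases Nat.lt_succ_iff_lt_or_eq.1 h1 with h3 | h3
              · exact Or.inr ⟨h3, h2⟩
              · exact Or.inl (Fin.ext h3)
            · rintro (h1 | ⟨h1, h2⟩)
              · subst h1
                exact ⟨by omega, haa'⟩
              · exact ⟨by omega, h2⟩
          rw [this, Finset.card_insert_of_notMem (by simp)]
        · rw [Function.update_of_ne hca]
          unfold stepWeight
          have hc' : c.val ≠ a'.val := fun h' => hc (Fin.ext h')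
          by_cases hle : a'.val ≤ c.val
          · rw [if_pos hle, if_pos (show a'.val + 1 ≤ c.val by omega)]
          · rw [if_neg hle, if_neg (show ¬ (a'.val + 1 ≤ c.val) by omega)]
            split_ifs with hcl
            · congr 1
              ext b
              simp only [mem_filter, mem_univ, true_and]
              constructor
              · rintro ⟨h1, h2⟩
                exact ⟨by omega, h2⟩
              · rintro ⟨h1, h2⟩
                refine ⟨?_, h2⟩
                rcases Nat.lt_succ_iff_lt_or_eq.1 h1 with h3 | h3
                · exact h3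
                · exfalso
                  have hb : b = a' := Fin.ext h3
                  subst hb
                  exact hca (hcl.eq ha (h2.trans haa'.symm))
            · rfl
    rw [hcard, ← hw]
    refine multi_merge G _ a a' hlt hadj hwa' (fun b hb hb' hmb => ⟨haa'.adj_iff hb hb', ?_⟩) N
    constructor
    · exact fun h' => h'.trans hlt
    · intro h'
      by_contra hcon
      have hab : a < b := lt_of_le_of_ne (not_lt.1 hcon) (Ne.symm hb)
      have htw : Twins G a b := twins_between hmono hab h' haa'
      apply hmb
      unfold stepWeight
      rw [if_neg (show ¬ (a'.val ≤ b.val) from not_le.2 h'), if_neg]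
      exact fun hbl => absurd (hbl a htw.symm) (not_le.2 hab)

/-- T3 -/
theorem chromatic_eq_twins {n : ℕ} (h : Fin n → Fin n) (hmono : Monotone h) (N : ℕ) :
    chromaticQSF (unitIntervalGraph h) N =
      MvPolynomial.C (twinFactor (unitIntervalGraph h)) *
        multichromaticQSF (unitIntervalGraph h) (twinWeight (unitIntervalGraph h)) N := by
  have key : ∀ j : ℕ, j ≤ n → chromaticQSF (unitIntervalGraph h) N =
      MvPolynomial.C (stepFactor (unitIntervalGraph h) j) *
        multichromaticQSF (unitIntervalGraph h) (stepWeight (unitIntervalGraph h) j) N := by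
    intro j
    induction j with
    | zero =>
      intro _
      rw [stepFactor_zero, stepWeight_zero, map_one, one_mul]
      exact chromatic_eq_multi_one _ N
    | succ j ih =>
      intro hj
      obtain ⟨k, h1, h2⟩ := step hmono N (⟨j, hj⟩ : Fin n)
      simp only at h1 h2
      rw [ih (by omega), h1, h2, map_mul, mul_assoc]
  rw [key n le_rfl, stepFactor_top, stepWeight_top]

end Contract

end Vale.Agent.P066.Multi
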